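import Vale.Agent.P181.H463.GtDef

/-!
P181 (T4-soft), leaf (D1): the number of Gelfand-Tsetlin patterns, its product formula and its
growth in the number of letters.
-/

set_option autoImplicit false

namespace Vale.Agent.P181.H19

open Finset Vale.Agent.P181.H463

/-- The same for strictly increasing sequences. -/
def hh : (N : ℕ) → (Fin N → ℕ) → ℕ
  | 0, _ => 1
  | N + 1, x => ∑ y ∈ Fintype.piFinset (fun i : Fin N => Ico (x i.castSucc) (x i.succ)), hh N y

/-- Hockey stick. -/
lemma sum_choose (j p q : ℕ) (h : p ≤ q) :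
    ∑ y ∈ Ico p q, (Nat.choose y j : ℤ) = (Nat.choose q (j + 1) : ℤ) - Nat.choose p (j + 1) := by
  induction q, h using Nat.le_induction with
  | base => simp
  | succ q hpq ih =>
    rw [Finset.sum_Ico_succ_top hpq, ih, Nat.choose_succ_succ q j]
    push_cast
    ring

lemma hh_det (N : ℕ) : ∀ x : Fin N → ℕ, Monotone x →
    (hh N x : ℤ) = (Matrix.of (fun i j : Fin N => (Nat.choose (x i) j : ℤ))).det := by
  induction N with
  | zero =>
    intro x _
    simp [hh]
  | succ N ih =>
    intro x hx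
    rw [hh, Nat.cast_sum]
    have h1 : ∀ y ∈ Fintype.piFinset (fun i : Fin N => Ico (x i.castSucc) (x i.succ)),
        (hh N y : ℤ) = (Matrix.of (fun i j : Fin N => (Nat.choose (y i) j : ℤ))).det := by
      intro y hy
      rw [Fintype.mem_piFinset] at hy
      refine ih y ?_
      rw [monotone_iff_forall_lt]
      intro i j hij
      have h2 := (Finset.mem_Ico.1 (hy i)).2
      have h3 := (Finset.mem_Ico.1 (hy j)).1
      have h4 : x i.succ ≤ x j.castSucc := hx (by
        rw [Fin.le_def]
        simp only [Fin.val_succ, Fin.val_castSucc]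
        exact hij)
      omega
    rw [Finset.sum_congr rfl h1]
    have h5 := (Matrix.detRowAlternating (R := ℤ) (n := Fin N)).toMultilinearMap.map_sum_finset
      (fun (i : Fin N) (y : ℕ) => (fun j : Fin N => (Nat.choose y j : ℤ)))
      (fun i : Fin N => Ico (x i.castSucc) (x i.succ))
    have h6 : ∑ y ∈ Fintype.piFinset (fun i : Fin N => Ico (x i.castSucc) (x i.succ)),
        (Matrix.of (fun i j : Fin N => (Nat.choose (y i) j : ℤ))).det =
        (Matrix.of (fun i j : Fin N => ∑ y ∈ Ico (x i.castSucc) (x i.succ),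
          (Nat.choose y j : ℤ))).det := by
      have h9 : (fun i : Fin N => ∑ y ∈ Ico (x i.castSucc) (x i.succ),
          (fun j : Fin N => (Nat.choose y j : ℤ))) =
          fun (i : Fin N) (j : Fin N) => ∑ y ∈ Ico (x i.castSucc) (x i.succ),
            (Nat.choose y j : ℤ) := by
        ext i j
        rw [Finset.sum_apply]
      have h10 := h5.symm
      rw [h9] at h10
      exact h10
    rw [h6]
    have h7 : (Matrix.of (fun i j : Fin (N + 1) => (Nat.choose (x i) j : ℤ))).det =
        (Matrix.of (fun i j : Fin (N + 1) => if h : i = 0 then (Nat.choose (x 0) j : ℤ)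
          else (Nat.choose (x i) j : ℤ) - Nat.choose (x (i.pred h).castSucc) j)).det := by
      refine Matrix.det_eq_of_forall_row_eq_smul_add_pred (fun _ => 1) ?_ ?_
      · intro j
        simp
      · intro i j
        rw [Matrix.of_apply, Matrix.of_apply, dif_neg (Fin.succ_ne_zero i), Fin.pred_succ,
          Matrix.of_apply]
        ring
    rw [h7, Matrix.det_succ_column_zero, Fin.sum_univ_succ]
    have h8 : ∀ i : Fin N, (-1 : ℤ) ^ ((i.succ : Fin (N + 1)) : ℕ) *
        (Matrix.of (fun i j : Fin (N + 1) => if h : i = 0 then (Nat.choose (x 0) j : ℤ)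
          else (Nat.choose (x i) j : ℤ) - Nat.choose (x (i.pred h).castSucc) j)) i.succ 0 *
        ((Matrix.of (fun i j : Fin (N + 1) => if h : i = 0 then (Nat.choose (x 0) j : ℤ)
          else (Nat.choose (x i) j : ℤ) - Nat.choose (x (i.pred h).castSucc) j)).submatrix
            (i.succ).succAbove Fin.succ).det = 0 := by
      intro i
      rw [Matrix.of_apply, dif_neg (Fin.succ_ne_zero i)]
      simp
    rw [Finset.sum_eq_zero (fun i _ => h8 i), add_zero]
    simp only [Fin.val_zero, pow_zero, one_mul, Matrix.of_apply, dif_pos, Nat.choose_zero_right,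
      Nat.cast_one, Fin.succAbove_zero]
    refine congrArg Matrix.det ?_
    ext i j
    rw [Matrix.of_apply, Matrix.submatrix_apply, Matrix.of_apply, dif_neg (Fin.succ_ne_zero i),
      Fin.pred_succ, Fin.val_succ, sum_choose _ _ _ (hx (Fin.castSucc_lt_succ).le)]

lemma hh_prod (N : ℕ) (x : Fin N → ℕ) (hx : Monotone x) :
    (hh N x : ℤ) * ∏ i : Fin N, ((i : ℕ).factorial : ℤ) =
      ∏ i : Fin N, ∏ j ∈ Ioi i, ((x j : ℤ) - x i) := by
  rw [hh_det N x hx, mul_comm, ← Matrix.det_mul_row, ← Matrix.det_vandermonde,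
    Matrix.det_eval_matrixOfPolynomials_eq_det_vandermonde (fun i => (x i : ℤ))
      (fun i => descPochhammer ℤ i) (fun i => descPochhammer_natDegree ℤ i)
      (fun i => monic_descPochhammer ℤ i)]
  refine congrArg Matrix.det ?_
  ext i j
  rw [Matrix.of_apply, Matrix.of_apply, Matrix.of_apply,
    descPochhammer_eval_eq_descFactorial ℤ _ _, Nat.descFactorial_eq_factorial_mul_choose]
  push_cast
  rfl

/-- Padding by zeros. -/
def pad {n : ℕ} (lam : Fin n → ℕ) (k : ℕ) : ℕ := if h : k < n then lam ⟨k, h⟩ else 0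

/-- The strictly increasing sequence of a shape. -/
def seqx {n : ℕ} (lam : Fin n → ℕ) (N : ℕ) (i : Fin N) : ℕ := pad lam (N - 1 - i) + i

lemma pad_anti {n : ℕ} {lam : Fin n → ℕ} (h : Antitone lam) {k l : ℕ} (hkl : k ≤ l) :
    pad lam l ≤ pad lam k := by
  unfold pad
  by_cases hl : l < n
  · rw [dif_pos hl, dif_pos (lt_of_le_of_lt hkl hl)]
    exact h (by rw [Fin.le_def]; exact hkl)
  · rw [dif_neg hl]
    exact Nat.zero_le _

lemma pad_ge {n : ℕ} {lam : Fin n → ℕ} {k : ℕ} (h : n ≤ k) : pad lam k = 0 := by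
  unfold pad
  rw [dif_neg (by omega)]

lemma pad_fin {n : ℕ} (lam : Fin n → ℕ) (i : Fin n) : pad lam i = lam i := by
  unfold pad
  rw [dif_pos i.2]

lemma nxt_pad {n : ℕ} (lam : Fin n → ℕ) (i : Fin n) : nxt lam i = pad lam (i + 1) := rfl

lemma seqx_mono {n : ℕ} {lam : Fin n → ℕ} (h : Antitone lam) (N : ℕ) : Monotone (seqx lam N) := by
  intro i j hij
  rw [Fin.le_def] at hij
  unfold seqx
  have h1 : pad lam (N - 1 - i) ≤ pad lam (N - 1 - j) := pad_anti h (by omega)
  omega

lemma mem_strips {n : ℕ} {lam mu : Fin n → ℕ} :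
    mu ∈ strips lam ↔ ∀ i : Fin n, pad lam ((i : ℕ) + 1) ≤ mu i ∧ mu i ≤ lam i := by
  unfold strips
  rw [Fintype.mem_piFinset]
  refine forall_congr' (fun i => ?_)
  rw [Finset.mem_Icc, nxt_pad]

lemma strips_anti {n : ℕ} {lam mu : Fin n → ℕ} (hl : Antitone lam) (h : mu ∈ strips lam) :
    Antitone mu := by
  rw [mem_strips] at h
  rw [antitone_iff_forall_lt]
  intro i j hij
  have h1 := (h i).1
  have h2 := (h j).2
  have h3 : pad lam j ≤ pad lam ((i : ℕ) + 1) := pad_anti hl (by
    rw [Fin.lt_def] at hij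
    omega)
  rw [pad_fin] at h3
  omega

/-- The link. -/
theorem gt_eq_hh {n : ℕ} (N : ℕ) : ∀ lam : Fin n → ℕ, Antitone lam →
    gt n N lam = if ∀ i : Fin n, N ≤ i → lam i = 0 then hh N (seqx lam N) else 0 := by
  induction N with
  | zero =>
    intro lam _
    rw [gt, hh]
    refine if_congr ?_ rfl rfl
    constructor
    · rintro rfl i _
      rfl
    · intro h
      funext i
      exact h i (Nat.zero_le _)
  | succ N ih =>
    intro lam hlam
    rw [gt]
    rw [Finset.sum_congr rfl (fun mu hmu => ih mu (strips_anti hlam hmu))]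
    split_ifs with hc
    · rw [hh, ← Finset.sum_filter]
      refine Finset.sum_bij' (fun mu _ => seqx mu N)
        (fun y _ => fun k : Fin n => if h : (k : ℕ) < N then y ⟨N - 1 - k, by omega⟩ - (N - 1 - k)
          else 0) ?_ ?_ ?_ ?_ ?_
      · intro mu hmu
        rw [Finset.mem_filter, mem_strips] at hmu
        rw [Fintype.mem_piFinset]
        intro i
        rw [Finset.mem_Ico]
        unfold seqx
        rw [Fin.val_castSucc, Fin.val_succ]
        have hi := i.2
        have e1 : N + 1 - 1 - (i : ℕ) = (N - 1 - i) + 1 := by omega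
        have e2 : N + 1 - 1 - ((i : ℕ) + 1) = N - 1 - i := by omega
        rw [e1, e2]
        by_cases hk : N - 1 - (i : ℕ) < n
        · have h1 := hmu.1 ⟨N - 1 - i, hk⟩
          have h2 : pad mu (N - 1 - (i : ℕ)) = mu ⟨N - 1 - i, hk⟩ := pad_fin mu ⟨_, hk⟩
          have h3 : pad lam (N - 1 - (i : ℕ)) = lam ⟨N - 1 - i, hk⟩ := pad_fin lam ⟨_, hk⟩
          rw [h2, h3]
          simp only at h1
          omega
        · rw [pad_ge (lam := mu) (by omega), pad_ge (lam := lam) (by omega),
            pad_ge (lam := lam) (by omega)]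
          omega
      · intro y hy
        rw [Fintype.mem_piFinset] at hy
        rw [Finset.mem_filter, mem_strips]
        constructor
        · intro k
          by_cases hk : (k : ℕ) < N
          · have h1 := Finset.mem_Ico.1 (hy ⟨N - 1 - k, by omega⟩)
            unfold seqx at h1
            rw [Fin.val_castSucc, Fin.val_succ] at h1
            have e1 : N + 1 - 1 - (N - 1 - (k : ℕ)) = (k : ℕ) + 1 := by omega
            have e2 : N + 1 - 1 - (N - 1 - (k : ℕ) + 1) = k := by omega
            simp only [e1, e2, pad_fin] at h1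
            rw [dif_pos hk]
            omega
          · rw [dif_neg hk]
            refine ⟨le_of_eq ?_, Nat.zero_le _⟩
            by_cases hk2 : (k : ℕ) + 1 < n
            · have h4 := hc ⟨(k : ℕ) + 1, hk2⟩ (by simp only; omega)
              have h5 : pad lam ((k : ℕ) + 1) = lam ⟨(k : ℕ) + 1, hk2⟩ := pad_fin lam ⟨_, hk2⟩
              rw [h5]
              exact h4
            · exact pad_ge (by omega)
        · intro k hk
          exact dif_neg (not_lt.2 hk)
      · intro mu hmu
        rw [Finset.mem_filter] at hmu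
        funext k
        by_cases hk : (k : ℕ) < N
        · simp only [dif_pos hk]
          unfold seqx
          have e1 : N - 1 - (N - 1 - (k : ℕ)) = k := by omega
          simp only [e1, pad_fin]
          omega
        · simp only [dif_neg hk]
          exact (hmu.2 k (by omega)).symm
      · intro y hy
        rw [Fintype.mem_piFinset] at hy
        funext i
        have h1 := Finset.mem_Ico.1 (hy i)
        unfold seqx at h1 ⊢
        rw [Fin.val_castSucc, Fin.val_succ] at h1
        have hi := i.2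
        have e1 : N + 1 - 1 - (i : ℕ) = (N - 1 - i) + 1 := by omega
        have e2 : N + 1 - 1 - ((i : ℕ) + 1) = N - 1 - i := by omega
        rw [e1, e2] at h1
        by_cases hk : N - 1 - (i : ℕ) < n
        · have h2 : pad (fun k : Fin n => if h : (k : ℕ) < N then
              y ⟨N - 1 - k, by omega⟩ - (N - 1 - k) else 0) (N - 1 - (i : ℕ)) =
              y i - i := by
            unfold pad
            rw [dif_pos hk]
            simp only
            rw [dif_pos (by omega)]
            have e3 : N - 1 - (N - 1 - (i : ℕ)) = i := by omega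
            simp only [e3]
          rw [h2]
          omega
        · rw [pad_ge (by omega)]
          rw [pad_ge (lam := lam) (by omega), pad_ge (lam := lam) (by omega)] at h1
          omega
      · intro mu _
        rfl
    · push Not at hc
      obtain ⟨i, hi, hne⟩ := hc
      refine Finset.sum_eq_zero (fun mu hmu => ?_)
      rw [mem_strips] at hmu
      rw [if_neg]
      intro h
      have hi2 := i.2
      have h1 := h ⟨(i : ℕ) - 1, by omega⟩ (by simp only; omega)
      have h2 := (hmu ⟨(i : ℕ) - 1, by omega⟩).1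
      simp only at h2
      have e1 : (i : ℕ) - 1 + 1 = i := by omega
      rw [e1, pad_fin] at h2
      omega

theorem gt_eq_hh' {n N : ℕ} (hn : n ≤ N) (lam : Fin n → ℕ) (hlam : Antitone lam) :
    gt n N lam = hh N (seqx lam N) := by
  rw [gt_eq_hh N lam hlam, if_pos]
  intro i hi
  have := i.2
  omega

lemma prod_fac_pos (N : ℕ) : (∏ i : Fin N, ((i : ℕ).factorial : ℤ)) ≠ 0 := by
  rw [Finset.prod_ne_zero_iff]
  intro i _
  exact_mod_cast (Nat.factorial_pos _).ne'

/-- The recursion in the number of letters. -/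
lemma hh_succ {n N : ℕ} (hn : n ≤ N) (lam : Fin n → ℕ) (hlam : Antitone lam) :
    (hh (N + 1) (seqx lam (N + 1)) : ℤ) * (N.factorial : ℤ) =
      hh N (seqx lam N) * ∏ j : Fin N, ((seqx lam N j : ℤ) + 1) := by
  have h1 := hh_prod (N + 1) (seqx lam (N + 1)) (seqx_mono hlam _)
  have h2 := hh_prod N (seqx lam N) (seqx_mono hlam _)
  have h3 : ∀ j : Fin N, seqx lam (N + 1) j.succ = seqx lam N j + 1 := by
    intro j
    unfold seqx
    rw [Fin.val_succ]
    have e1 : N + 1 - 1 - ((j : ℕ) + 1) = N - 1 - j := by omega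
    rw [e1]
    omega
  have h4 : seqx lam (N + 1) 0 = 0 := by
    unfold seqx
    rw [Fin.val_zero, pad_ge (by omega)]
  have h5 : ∏ i : Fin (N + 1), ∏ j ∈ Ioi i,
      ((seqx lam (N + 1) j : ℤ) - seqx lam (N + 1) i) =
      (∏ j : Fin N, ((seqx lam N j : ℤ) + 1)) *
        ∏ i : Fin N, ∏ j ∈ Ioi i, ((seqx lam N j : ℤ) - seqx lam N i) := by
    rw [Fin.prod_univ_succ, Fin.prod_Ioi_zero]
    congr 1
    · refine Finset.prod_congr rfl (fun j _ => ?_)
      rw [h3, h4]
      push_cast
      ring
    · refine Finset.prod_congr rfl (fun i _ => ?_)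
      rw [Fin.prod_Ioi_succ]
      refine Finset.prod_congr rfl (fun j _ => ?_)
      rw [h3, h3]
      push_cast
      ring
  have h6 : ∏ i : Fin (N + 1), ((i : ℕ).factorial : ℤ) =
      (∏ i : Fin N, ((i : ℕ).factorial : ℤ)) * (N.factorial : ℤ) := by
    rw [Fin.prod_univ_castSucc]
    rfl
  rw [h5, h6, ← h2] at h1
  refine mul_right_cancel₀ (prod_fac_pos N) ?_
  linear_combination h1

lemma prod_seqx {n N : ℕ} (hn : n ≤ N) (lam : Fin n → ℕ) :
    ∏ j : Fin N, (seqx lam N j + 1) =
      (∏ k : Fin n, (lam k + (N - k))) * ∏ k ∈ Ico n N, (N - k) := by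
  have h1 : ∏ j : Fin N, (seqx lam N j + 1) = ∏ k ∈ range N, (pad lam k + (N - k)) := by
    rw [← Finset.prod_range_reflect, ← Fin.prod_univ_eq_prod_range
      (fun j => pad lam (N - 1 - j) + (N - (N - 1 - j)))]
    refine Finset.prod_congr rfl (fun j _ => ?_)
    unfold seqx
    have := j.2
    omega
  rw [h1, ← Finset.prod_range_mul_prod_Ico _ hn]
  congr 1
  · rw [← Fin.prod_univ_eq_prod_range (fun k => pad lam k + (N - k))]
    refine Finset.prod_congr rfl (fun j _ => ?_)
    rw [pad_fin]
  · refine Finset.prod_congr rfl (fun k hk => ?_)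
    rw [pad_ge (Finset.mem_Ico.1 hk).1, Nat.zero_add]

lemma fact_prod {n N : ℕ} (hn : n ≤ N) :
    N.factorial = (∏ k : Fin n, (N - (k : ℕ))) * ∏ k ∈ Ico n N, (N - k) := by
  have h1 : N.factorial = ∏ k ∈ range N, (N - k) := by
    rw [← Finset.prod_range_add_one_eq_factorial, ← Finset.prod_range_reflect]
    refine Finset.prod_congr rfl (fun k hk => ?_)
    have := Finset.mem_range.1 hk
    omega
  rw [h1, ← Finset.prod_range_mul_prod_Ico _ hn, Fin.prod_univ_eq_prod_range (fun k => N - k)]

/-- **One more letter.** -/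
theorem gt_succ_mul {n N : ℕ} (hn : n ≤ N) (lam : Fin n → ℕ) (hlam : Antitone lam) :
    gt n (N + 1) lam * ∏ k : Fin n, (N - (k : ℕ)) =
      gt n N lam * ∏ k : Fin n, (lam k + (N - (k : ℕ))) := by
  have h1 := hh_succ hn lam hlam
  rw [← gt_eq_hh' (by omega) lam hlam, ← gt_eq_hh' hn lam hlam] at h1
  have h2 : gt n (N + 1) lam * N.factorial = gt n N lam * ∏ j : Fin N, (seqx lam N j + 1) := by
    exact_mod_cast h1
  rw [prod_seqx hn, fact_prod hn, ← mul_assoc, ← mul_assoc] at h2
  refine Nat.eq_of_mul_eq_mul_right ?_ h2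
  refine Finset.prod_pos (fun k hk => ?_)
  have := (Finset.mem_Ico.1 hk).2
  omega

/-- The Weyl product formula. -/
theorem gt_prod {n N : ℕ} (hn : n ≤ N) (lam : Fin n → ℕ) (hlam : Antitone lam) :
    (gt n N lam : ℤ) * ∏ i : Fin N, ((i : ℕ).factorial : ℤ) =
      ∏ i : Fin N, ∏ j ∈ Ioi i, ((seqx lam N j : ℤ) - seqx lam N i) := by
  rw [gt_eq_hh' hn lam hlam]
  exact hh_prod N _ (seqx_mono hlam N)

/-- **Growth in the number of letters, one step.** -/
theorem gt_succ_exp {n N L : ℕ} (hn : n ≤ N) (lam : Fin n → ℕ) (hlam : Antitone lam)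
    (hL : ∀ i, lam i ≤ L) :
    (gt n N lam : ℝ) * Real.exp ((∑ i, lam i : ℕ) / ((N + L : ℕ) : ℝ)) ≤ gt n (N + 1) lam := by
  have h1 := gt_succ_mul hn lam hlam
  have hpos : ∀ k : Fin n, 0 < N - (k : ℕ) := fun k => by
    have := k.2
    omega
  have h2 : (gt n (N + 1) lam : ℝ) = gt n N lam *
      ∏ k : Fin n, (((lam k + (N - (k : ℕ)) : ℕ) : ℝ) / ((N - (k : ℕ) : ℕ) : ℝ)) := by
    rw [Finset.prod_div_distrib, ← mul_div_assoc, eq_div_iff]
    · exact_mod_cast h1
    · refine (Finset.prod_pos (fun k _ => ?_)).ne'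
      exact_mod_cast hpos k
  rw [h2]
  refine mul_le_mul_of_nonneg_left ?_ (Nat.cast_nonneg _)
  rw [Nat.cast_sum, Finset.sum_div, Real.exp_sum]
  refine Finset.prod_le_prod (fun k _ => (Real.exp_pos _).le) (fun k _ => ?_)
  have hk := hpos k
  obtain ⟨s, hs⟩ : ∃ s, s = N - (k : ℕ) := ⟨_, rfl⟩
  rw [← hs] at hk ⊢
  have hsN : s ≤ N := by omega
  have hs0 : (0 : ℝ) < s := by exact_mod_cast hk
  have ht0 : (0 : ℝ) ≤ lam k := Nat.cast_nonneg _
  have h3 : Real.exp ((lam k : ℝ) / ((N + L : ℕ) : ℝ)) ≤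
      Real.exp ((lam k : ℝ) / (lam k + s)) := by
    refine Real.exp_le_exp.2 (div_le_div_of_nonneg_left ht0 (by linarith) ?_)
    have := hL k
    have h5 : lam k + s ≤ N + L := by omega
    exact_mod_cast h5
  refine h3.trans ?_
  have h4 := Real.add_one_le_exp (-((lam k : ℝ) / (lam k + s)))
  have h6 : -((lam k : ℝ) / (lam k + s)) + 1 = s / (lam k + s) := by
    field_simp
    ring
  rw [h6, Real.exp_neg] at h4
  have h7 : (0 : ℝ) < s / (lam k + s) := by positivity
  have h8 := inv_anti₀ h7 h4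
  rw [inv_inv, inv_div] at h8
  push_cast
  exact h8

/-- **Growth in the number of letters.** -/
theorem gt_exp {n a N L : ℕ} (hn : n ≤ a) (haN : a ≤ N) (lam : Fin n → ℕ) (hlam : Antitone lam)
    (hL : ∀ i, lam i ≤ L) :
    (gt n a lam : ℝ) * Real.exp (((N - a : ℕ) : ℝ) * (∑ i, lam i : ℕ) / ((N + L : ℕ) : ℝ)) ≤
      gt n N lam := by
  induction N, haN using Nat.le_induction with
  | base => simp
  | succ N haN ih =>
    refine le_trans ?_ (gt_succ_exp (le_trans hn haN) lam hlam hL)
    have h0 : (0 : ℝ) ≤ ((∑ i, lam i : ℕ) : ℝ) := Nat.cast_nonneg _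
    rcases Nat.eq_zero_or_pos (N + L) with hz | hz
    · have hN : N = 0 := by omega
      have hLz : L = 0 := by omega
      have h9 : ∑ i, lam i = 0 := by
        refine Finset.sum_eq_zero (fun i _ => ?_)
        have := hL i
        omega
      subst hN
      have ha : a = 0 := by omega
      subst ha
      rw [h9]
      simp
    · have hz' : (0 : ℝ) < ((N + L : ℕ) : ℝ) := by exact_mod_cast hz
      have h1 : (gt n a lam : ℝ) *
          Real.exp (((N + 1 - a : ℕ) : ℝ) * (∑ i, lam i : ℕ) / ((N + 1 + L : ℕ) : ℝ)) ≤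
          (gt n a lam : ℝ) * (Real.exp (((N - a : ℕ) : ℝ) * (∑ i, lam i : ℕ) /
            ((N + L : ℕ) : ℝ)) * Real.exp ((∑ i, lam i : ℕ) / ((N + L : ℕ) : ℝ))) := by
        refine mul_le_mul_of_nonneg_left ?_ (Nat.cast_nonneg _)
        rw [← Real.exp_add]
        refine Real.exp_le_exp.2 ?_
        rw [← add_div]
        have h2 : ((N + 1 - a : ℕ) : ℝ) = ((N - a : ℕ) : ℝ) + 1 := by
          rw [Nat.succ_sub haN]
          push_cast
          rfl
        rw [h2]
        have h3 : (((N - a : ℕ) : ℝ) + 1) * ((∑ i, lam i : ℕ) : ℝ) =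
            ((N - a : ℕ) : ℝ) * ((∑ i, lam i : ℕ) : ℝ) + ((∑ i, lam i : ℕ) : ℝ) := by ring
        rw [h3]
        refine div_le_div_of_nonneg_left (by positivity) hz' ?_
        push_cast
        linarith
      refine h1.trans ?_
      rw [← mul_assoc]
      exact mul_le_mul_of_nonneg_right ih (Real.exp_pos _).le

/-- The same for `lam 0`. -/
theorem gt_exp_zero {n a N : ℕ} (hn : n + 1 ≤ a) (haN : a ≤ N) (lam : Fin (n + 1) → ℕ)
    (hlam : Antitone lam) :
    (gt (n + 1) a lam : ℝ) *
      Real.exp (((N - a : ℕ) : ℝ) * (∑ i, lam i : ℕ) / ((N + lam 0 : ℕ) : ℝ)) ≤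
      gt (n + 1) N lam :=
  gt_exp hn haN lam hlam (fun _ => hlam (Fin.zero_le _))

end Vale.Agent.P181.H19
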